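import Mathlib.AlgebraicTopology.FundamentalGroupoid.SimplyConnected
import Mathlib.Analysis.CStarAlgebra.Classes
import Mathlib.Analysis.InnerProductSpace.PiL2
import Mathlib.Geometry.Manifold.MFDeriv.Defs
import Mathlib.Geometry.Manifold.Sheaf.Basic

/-!
# P250: Kaehler geometry on abstract complex manifolds, in local charts

A complex manifold of dimension `n` is a Hausdorff, second countable space `M` with
`[ChartedSpace (C n) M] [IsManifold 𝓘(ℂ, C n) ω M]` (holomorphic chart changes). Tensors are given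
by their expressions in the charts `φ` of the atlas: `p` denotes a point of the image `φ.target` of
the chart and `u, v, w` are real tangent vectors at `p`, that is, elements of `C n`.
-/

open scoped Manifold ContDiff
open Complex

namespace P250.Man

/-- the model space `ℂⁿ` with the Euclidean norm -/
abbrev C (n : ℕ) : Type := EuclideanSpace ℂ (Fin n)

variable {n : ℕ}

/-! ### Local formulas on an open set `V` of `ℂⁿ` -/

/-- the derivative `D_u f (p)` of `f` at `p` in the direction `u` -/
noncomputable def dd {F : Type} [NormedAddCommGroup F] [NormedSpace ℝ F] (f : C n → F)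
    (p u : C n) : F := fderiv ℝ f p u

/-- `h p u v` is a smooth Kaehler metric on the open set `V` -/
structure IsLocalKahler (V : Set (C n)) (h : C n → C n → C n → ℝ) : Prop where
  /-- the components of the metric are smooth functions -/
  smooth : ∀ u v : C n, ContDiffOn ℝ ∞ (fun p => h p u v) V
  /-- at each point the metric is a real inner product -/
  linear : ∀ p ∈ V, ∀ u : C n, IsLinearMap ℝ (h p u)
  symm : ∀ p ∈ V, ∀ u v : C n, h p u v = h p v u
  pos : ∀ p ∈ V, ∀ u : C n, u ≠ 0 → 0 < h p u u
  /-- the metric is invariant under the complex structure `J u = I • u` -/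
  hermitian : ∀ p ∈ V, ∀ u v : C n, h p (I • u) (I • v) = h p u v
  /-- the fundamental form `ω (v, w) = h (J v, w)` is closed:
  `D_u ω (v, w) + D_v ω (w, u) + D_w ω (u, v) = 0` -/
  closed : ∀ p ∈ V, ∀ u v w : C n, dd (fun q => h q (I • v) w) p u +
    dd (fun q => h q (I • w) u) p v + dd (fun q => h q (I • u) v) p w = 0

/-- `Γ` is the Levi-Civita connection `∇_u X = D_u X + Γ(u, X)` of the metric `h` on `V`, by the
Koszul formula `2 h(Γ(u,v), w) = D_u h(v,w) + D_v h(w,u) - D_w h(u,v)` -/
def IsLocalLeviCivita (V : Set (C n)) (h : C n → C n → C n → ℝ)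
    (Γ : C n → C n → C n → C n) : Prop :=
  ∀ p ∈ V, ∀ u v w : C n, 2 * h p (Γ p u v) w =
    dd (fun q => h q v w) p u + dd (fun q => h q w u) p v - dd (fun q => h q u v) p w

/-- the curvature tensor `R(u,v)w = ∇_u ∇_v w - ∇_v ∇_u w` (for constant fields `u, v, w`) of the
connection `∇_u X = D_u X + Γ(u, X)` at `p` -/
noncomputable def curvature (Γ : C n → C n → C n → C n) (p u v w : C n) : C n :=
  dd (fun q => Γ q v w) p u - dd (fun q => Γ q u w) p v + Γ p u (Γ p v w) - Γ p v (Γ p u w)

/-- the sectional curvature `h(R(u,v)v, u) / (h(u,u) h(v,v) - h(u,v)²)` of the real two-plane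
spanned by `u` and `v` at `p` -/
noncomputable def sectional (h : C n → C n → C n → ℝ) (Γ : C n → C n → C n → C n)
    (p u v : C n) : ℝ :=
  h p (curvature Γ p u v v) u / (h p u u * h p v v - h p u v ^ 2)

/-- the curve `x : ℝ → ℂⁿ` solves the geodesic equation `x'' = -Γ(x', x')` at the time `t` -/
def SolvesGeodesicEquation (Γ : C n → C n → C n → C n) (x : ℝ → C n) (t : ℝ) : Prop :=
  DifferentiableAt ℝ x t ∧ HasDerivAt (deriv x) (-Γ (x t) (deriv x t) (deriv x t)) t

/-! ### Manifolds -/

variable {M : Type} [TopologicalSpace M] [ChartedSpace (C n) M]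

/-- `g` is a Kaehler metric on `M`: `g φ` is its expression in the chart `φ`, and the expressions
in two charts agree under the change of coordinates `ψ ∘ φ⁻¹` -/
def IsKahlerMetric (g : OpenPartialHomeomorph M (C n) → C n → C n → C n → ℝ) : Prop :=
  (∀ φ ∈ atlas (C n) M, IsLocalKahler φ.target (g φ)) ∧
  ∀ φ ∈ atlas (C n) M, ∀ ψ ∈ atlas (C n) M, ∀ x ∈ φ.source ∩ ψ.source, ∀ u v : C n,
    g φ (φ x) u v = g ψ (ψ x) (dd (ψ ∘ φ.symm) (φ x) u) (dd (ψ ∘ φ.symm) (φ x) v)

/-- `Γ` is the Levi-Civita connection of `g`: `Γ φ` is its expression in the chart `φ` -/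
def IsLeviCivita (g : OpenPartialHomeomorph M (C n) → C n → C n → C n → ℝ)
    (Γ : OpenPartialHomeomorph M (C n) → C n → C n → C n → C n) : Prop :=
  ∀ φ ∈ atlas (C n) M, IsLocalLeviCivita φ.target (g φ) (Γ φ)

/-- negatively pinched: `-b ≤ K ≤ -a` for all real two-planes at all points -/
def IsNegativelyPinched (g : OpenPartialHomeomorph M (C n) → C n → C n → C n → ℝ)
    (Γ : OpenPartialHomeomorph M (C n) → C n → C n → C n → C n) : Prop :=
  ∃ a b : ℝ, 0 < a ∧ a ≤ b ∧ ∀ φ ∈ atlas (C n) M, ∀ p ∈ φ.target, ∀ u v : C n,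
    LinearIndependent ℝ ![u, v] →
      -b ≤ sectional (g φ) (Γ φ) p u v ∧ sectional (g φ) (Γ φ) p u v ≤ -a

/-- `c : ℝ → M` is a geodesic: it is continuous and solves the geodesic equation in every chart -/
def IsGeodesic (Γ : OpenPartialHomeomorph M (C n) → C n → C n → C n → C n) (c : ℝ → M) : Prop :=
  Continuous c ∧ ∀ φ ∈ atlas (C n) M, ∀ t : ℝ, c t ∈ φ.source →
    SolvesGeodesicEquation (Γ φ) (φ ∘ c) t

/-- geodesically complete: for every point `x` and every tangent vector `v` at `x` there is a
geodesic `c`, defined on all of `ℝ`, with `c 0 = x` and `c' 0 = v` -/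
def IsComplete (Γ : OpenPartialHomeomorph M (C n) → C n → C n → C n → C n) : Prop :=
  ∀ φ ∈ atlas (C n) M, ∀ x ∈ φ.source, ∀ v : C n,
    ∃ c : ℝ → M, IsGeodesic Γ c ∧ c 0 = x ∧ deriv (φ ∘ c) 0 = v

variable (n M)

/-- `M` is biholomorphic to a bounded domain `D` of `ℂⁿ`: there is a bijection `f : M → D`,
holomorphic together with its inverse -/
def IsBiholomorphicToBoundedDomain : Prop :=
  ∃ (D : TopologicalSpace.Opens (C n)) (f : M ≃ D),
    IsConnected (D : Set (C n)) ∧ Bornology.IsBounded (D : Set (C n)) ∧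
    MDifferentiable 𝓘(ℂ, C n) 𝓘(ℂ, C n) f ∧ MDifferentiable 𝓘(ℂ, C n) 𝓘(ℂ, C n) f.symm

/-- The statement of Q1 in complex dimension `n`: every simply connected, complete, negatively
pinched Kaehler manifold of complex dimension `n` is biholomorphic to a bounded domain in `ℂⁿ`. -/
def Uniformization : Prop :=
  ∀ (M : Type) [TopologicalSpace M] [T2Space M] [SecondCountableTopology M]
    [ChartedSpace (C n) M] [IsManifold 𝓘(ℂ, C n) ω M] [SimplyConnectedSpace M]
    (g : OpenPartialHomeomorph M (C n) → C n → C n → C n → ℝ)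
    (Γ : OpenPartialHomeomorph M (C n) → C n → C n → C n → C n),
    IsKahlerMetric g → IsLeviCivita g Γ → IsComplete Γ → IsNegativelyPinched g Γ →
      IsBiholomorphicToBoundedDomain n M

end P250.Man
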