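import Mathlib.Algebra.Lie.OfAssociative
import Mathlib.Geometry.Manifold.Algebra.Monoid
import Mathlib.Geometry.Manifold.MFDeriv.FDeriv
import Vale.Agent.Lib.P250.GeoCore
import Vale.Agent.Lib.P250.Man.Defs

/-!
# P250: a counterexample given by an open subset of `ℂⁿ` refutes the statement for manifolds
-/

open scoped Manifold ContDiff Topology
open Complex TopologicalSpace

namespace P250.Man

variable {n : ℕ}

theorem chart_apply {U : Opens (C n)} {φ : OpenPartialHomeomorph U (C n)}
    (hφ : φ ∈ atlas (C n) U) :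
    φ.source = Set.univ ∧ φ.target = (U : Set (C n)) ∧ (∀ x : U, φ x = x.1) ∧
      ∀ (p : C n) (hp : p ∈ U), φ.symm p = ⟨p, hp⟩ := by
  obtain ⟨_, ⟨x, rfl⟩, h⟩ := hφ
  rw [Set.mem_singleton_iff] at h
  have hs : φ.source = Set.univ := by
    rw [h, OpenPartialHomeomorph.subtypeRestr_source]
    rfl
  have ha : ∀ x : U, φ x = x.1 := by
    intro y
    rw [h]
    rfl
  have ht : φ.target = (U : Set (C n)) := by
    rw [← φ.image_source_eq_target, hs]
    ext p
    constructor
    · rintro ⟨y, _, rfl⟩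
      rw [ha]
      exact y.2
    · intro hp
      exact ⟨⟨p, hp⟩, trivial, ha _⟩
  refine ⟨hs, ht, ha, fun p hp => ?_⟩
  have h1 : φ.symm (φ ⟨p, hp⟩) = ⟨p, hp⟩ := φ.left_inv (by rw [hs]; trivial)
  rw [ha] at h1
  exact h1

/-- derivative of a component of the metric -/
theorem fderiv_comp {M : Set (C n)} (hM : IsOpen M) {g : C n → C n →L[ℝ] C n →L[ℝ] ℝ}
    (hg : ContDiffOn ℝ ∞ g M) {p : C n} (hp : p ∈ M) (u v w : C n) :
    dd (fun q => g q v w) p u = fderiv ℝ g p u v w := by
  unfold dd
  have h1 : DifferentiableAt ℝ g p := (hg.contDiffAt (hM.mem_nhds hp)).differentiableAt (by simp)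
  have h2 := (h1.hasFDerivAt.clm_apply (hasFDerivAt_const v p)).clm_apply (hasFDerivAt_const w p)
  rw [h2.fderiv]
  simp

theorem fderiv_comp' {M : Set (C n)} (hM : IsOpen M) {g : C n → C n →L[ℝ] C n →L[ℝ] C n}
    (hg : ContDiffOn ℝ ∞ g M) {p : C n} (hp : p ∈ M) (u v w : C n) :
    dd (fun q => g q v w) p u = fderiv ℝ g p u v w := by
  unfold dd
  have h1 : DifferentiableAt ℝ g p := (hg.contDiffAt (hM.mem_nhds hp)).differentiableAt (by simp)
  have h2 := (h1.hasFDerivAt.clm_apply (hasFDerivAt_const v p)).clm_apply (hasFDerivAt_const w p)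
  rw [h2.fderiv]
  simp

theorem curvature_eq {M : Set (C n)} (hM : IsOpen M) {Γ : C n → C n →L[ℝ] C n →L[ℝ] C n}
    (hg : ContDiffOn ℝ ∞ Γ M) {p : C n} (hp : p ∈ M) (u v w : C n) :
    curvature (fun p u v => Γ p u v) p u v w = curvatureTensor Γ p u v w := by
  unfold curvature curvatureTensor
  rw [fderiv_comp' hM hg hp, fderiv_comp' hM hg hp]

open scoped Classical in
/-- extension by zero -/
noncomputable def ext0 {U D : Opens (C n)} (f : U → D) (p : C n) : C n :=
  if h : p ∈ U then (f ⟨p, h⟩ : C n) else 0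

theorem ext0_apply {U D : Opens (C n)} (f : U → D) {p : C n} (h : p ∈ U) :
    ext0 f p = f ⟨p, h⟩ := dif_pos h

theorem ext0_diff {U D : Opens (C n)} {f : U → D}
    (hf : MDifferentiable 𝓘(ℂ, C n) 𝓘(ℂ, C n) f) : DifferentiableOn ℂ (ext0 f) (U : Set (C n)) := by
  intro p hp
  refine DifferentiableAt.differentiableWithinAt ?_
  rw [← mdifferentiableAt_iff_differentiableAt]
  have h1 : MDifferentiableAt 𝓘(ℂ, C n) 𝓘(ℂ, C n) (ext0 f ∘ Subtype.val) (⟨p, hp⟩ : U) := by
    have h2 : ext0 f ∘ Subtype.val = (Subtype.val : D → C n) ∘ f := by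
      funext x
      exact ext0_apply f x.2
    rw [h2]
    have h3 : MDifferentiable 𝓘(ℂ, C n) 𝓘(ℂ, C n) (Subtype.val : D → C n) :=
      (contMDiff_subtype_val (n := 1)).mdifferentiable (by simp)
    exact (h3 _).comp _ (hf _)
  exact (differentiableWithinAt_localInvariantProp.liftPropAt_iff_comp_subtype_val
    (ext0 f) (⟨p, hp⟩ : U)).2 h1

theorem refute {M : Set (C n)} {g : C n → C n →L[ℝ] C n →L[ℝ] ℝ}
    {Γ : C n → C n →L[ℝ] C n →L[ℝ] C n} (hM : IsOpen M) [hsc : SimplyConnectedSpace M]
    (hK : P250.IsKahlerMetric M g) (hΓ : P250.IsLeviCivita M g Γ)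
    (hc : P250.IsGeodesicallyComplete M Γ) (hp : P250.IsNegativelyPinched M g Γ)
    (hno : ∀ D : Set (C n), IsOpen D → Bornology.IsBounded D → ¬ AreBiholomorphic M D) :
    ¬ Uniformization n := by
  intro hunif
  let U : Opens (C n) := ⟨M, hM⟩
  have : SimplyConnectedSpace U := hsc
  suffices key : IsBiholomorphicToBoundedDomain n U by
    obtain ⟨D, f, -, hDb, hf, hf'⟩ := key
    refine hno D D.2 hDb ⟨ext0 f, ext0 f.symm, ext0_diff hf, ext0_diff hf', ?_, ?_, ?_, ?_⟩
    · intro p hp
      rw [ext0_apply f (show p ∈ U from hp)]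
      exact (f _).2
    · intro p hp
      rw [ext0_apply f.symm (show p ∈ D from hp)]
      exact (f.symm _).2
    · intro p hp
      rw [ext0_apply f (show p ∈ U from hp), ext0_apply f.symm (f _).2]
      simp
    · intro p hp
      rw [ext0_apply f.symm (show p ∈ D from hp), ext0_apply f (f.symm _).2]
      simp
  refine hunif U (fun _ p u v => g p u v) (fun _ p u v => Γ p u v) ?_ ?_ ?_ ?_
  · constructor
    · intro φ hφ
      rw [(chart_apply hφ).2.1]
      constructor
      · intro u v
        exact (hK.smooth.clm_apply contDiffOn_const).clm_apply contDiffOn_const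
      · intro p hp u
        exact ⟨fun x y => map_add _ x y, fun c x => map_smul _ c x⟩
      · intro p hp u v
        exact hK.symm p hp u v
      · intro p hp u hu
        exact hK.pos p hp u hu
      · intro p hp u v
        exact hK.hermitian p hp u v
      · intro p hp u v w
        rw [fderiv_comp hM hK.smooth hp, fderiv_comp hM hK.smooth hp,
          fderiv_comp hM hK.smooth hp]
        exact hK.closed p hp u v w
    · intro φ hφ ψ hψ x _ u v
      obtain ⟨_, h1, h2, h3⟩ := chart_apply hφ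
      obtain ⟨_, k1, k2, k3⟩ := chart_apply hψ
      have h4 : (ψ ∘ φ.symm) =ᶠ[𝓝 (φ x)] id := by
        have h5 : M ∈ 𝓝 (φ x) := by
          rw [h2]
          exact hM.mem_nhds x.2
        filter_upwards [h5] with p hp
        rw [Function.comp_apply, h3 p hp, k2]
        rfl
      unfold dd
      rw [h4.fderiv_eq, fderiv_id, h2, k2]
      rfl
  · intro φ hφ p hp u v w
    rw [(chart_apply hφ).2.1] at hp
    rw [fderiv_comp hM hK.smooth hp, fderiv_comp hM hK.smooth hp, fderiv_comp hM hK.smooth hp,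
      hΓ.metric p hp, hΓ.metric p hp, hΓ.metric p hp]
    have e1 := hΓ.torsion_free p hp u w
    have e2 := hΓ.torsion_free p hp v w
    have e3 := hΓ.torsion_free p hp u v
    have s1 := hK.symm p hp v (Γ p u w)
    have s2 := hK.symm p hp w (Γ p v u)
    have s3 := hK.symm p hp u (Γ p w v)
    rw [← e1, ← e2, ← e3] at *
    linarith
  · intro φ hφ x _ v
    obtain ⟨h0, h1, h2, h3⟩ := chart_apply hφ
    obtain ⟨c, hc0, hc1, hc2⟩ := hc x.1 x.2 v
    have hcont : Continuous c := continuous_iff_continuousAt.2 fun t => (hc2 t).2.1.continuousAt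
    refine ⟨fun t => ⟨c t, (hc2 t).1⟩, ⟨hcont.subtype_mk _, fun ψ hψ t _ => ?_⟩,
      Subtype.ext hc0, ?_⟩
    · have h4 : (ψ ∘ fun t => (⟨c t, (hc2 t).1⟩ : U)) = c := by
        funext s
        exact (chart_apply hψ).2.2.1 _
      rw [h4]
      exact (hc2 t).2
    · have h4 : (φ ∘ fun t => (⟨c t, (hc2 t).1⟩ : U)) = c := by
        funext s
        exact h2 _
      rw [h4]
      exact hc1
  · obtain ⟨a, b, ha, hab, h⟩ := hp
    refine ⟨a, b, ha, hab, fun φ hφ p hp u v huv => ?_⟩
    rw [(chart_apply hφ).2.1] at hp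
    have h1 := h p hp u v huv
    have h2 : sectional (fun p u v => g p u v) (fun p u v => Γ p u v) p u v =
        sectionalCurvature g Γ p u v := by
      unfold sectional sectionalCurvature
      rw [curvature_eq hM hΓ.smooth hp]
    rw [h2]
    exact h1

end P250.Man
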